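import Vale.Agent.P113.H799.SAdm
import Vale.Agent.P113.H165.Load

/-!
P113: part DS.
-/

open MeasureTheory Set Filter Topology
open scoped ContDiff

namespace Vale.Agent.P113.S

theorem adm_periodic_single {V : E → ℝ} (h : Adm V) (x : E) (i : Fin 3) :
    V (x + Pi.single i 1) = V x := by
  have := adm_periodic h x (Pi.single i 1)
  convert this using 2
  congr 1
  funext j
  by_cases hj : j = i
  · subst hj; simp
  · simp [hj]

theorem exists_code_one (V : E → ℝ) (hV : Adm V) (m : ℕ) :
    ∃ L : List TermCode, (∀ τ ∈ L, TermCode.Valid τ ∧ isPeriodic τ = true) ∧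
      ∀ ν t x, (L.map fun τ => termVal ν τ t x).sum =
        deriv (pslot m) t * V x - ν * pslot m t * ∑ k, pd k (pd k V) x := by
  have h1 : Alg fun _ t _ => deriv (pslot m) t := (pslot_alg m).dt
  have h2 : Alg fun _ _ x => ∑ j, Vale.Agent.P113.pd j (Vale.Agent.P113.pd j V) x := by
    apply Alg.sum
    intro j _
    exact ((adm_alg hV).pd j).pd j
  obtain ⟨L, hL, hLv⟩ :=
    ((h1.mul (adm_alg hV)).sub ((Alg.nu.mul (pslot_alg m)).mul h2)).rep
  exact ⟨L, hL, fun ν t x => (hLv ν t x).symm⟩

theorem partDS : PartDS :=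
  H165.partDS_of (fun _ hV => ⟨adm_contDiff hV, adm_periodic_single hV⟩)
    fun V hV m => exists_code_one V hV m

end Vale.Agent.P113.S
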