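import Vale.Agent.P113.H799.R

/-!
P113: symbolic calculus of term lists (representable functions).
-/

open MeasureTheory Set Filter Topology
open scoped ContDiff

namespace Vale.Agent.P113.S

/-- The value of a list of terms. -/
noncomputable def lval (L : List TermCode) (ν t : ℝ) (x : E) : ℝ :=
  (L.map fun τ => termVal ν τ t x).sum

theorem forceVal_apply (ν : ℝ) (F : Fin 3 → List TermCode) (t : ℝ) (x : E) (i : Fin 3) :
    forceVal ν F t x i = lval (F i) ν t x := rfl

theorem lval_nil (ν t : ℝ) (x : E) : lval [] ν t x = 0 := rfl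

theorem lval_cons (τ : TermCode) (L : List TermCode) (ν t : ℝ) (x : E) :
    lval (τ :: L) ν t x = termVal ν τ t x + lval L ν t x := by
  simp [lval]

theorem lval_append (L L' : List TermCode) (ν t : ℝ) (x : E) :
    lval (L ++ L') ν t x = lval L ν t x + lval L' ν t x := by
  simp [lval]

/-- The product of two terms. -/
def tmul : TermCode → TermCode → TermCode
  | (q, m, n, rs, θ, h), (q', m', n', rs', θ', h') =>
    ((q.1 * q'.1, q.2 * q'.2), m + m', n + n', rs ++ rs', θ ++ θ', fun i => h i ++ h' i)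

theorem qval_mul (q q' : QCode) : qval (q.1 * q'.1, q.2 * q'.2) = qval q * qval q' := by
  unfold qval
  push_cast
  rw [mul_div_mul_comm]

theorem tmul_val (τ τ' : TermCode) (ν t : ℝ) (x : E) :
    termVal ν (tmul τ τ') t x = termVal ν τ t x * termVal ν τ' t x := by
  obtain ⟨q, m, n, rs, θ, h⟩ := τ
  obtain ⟨q', m', n', rs', θ', h'⟩ := τ'
  simp only [tmul, termVal, qval_mul, pow_add, zpow_add₀ R.kappa_pos.ne', List.map_append,
    List.prod_append, Finset.prod_mul_distrib]
  ring

theorem tmul_valid {τ τ' : TermCode} (h : TermCode.Valid τ) (h' : TermCode.Valid τ') :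
    TermCode.Valid (tmul τ τ') := by
  obtain ⟨q, m, n, rs, θ, g⟩ := τ
  obtain ⟨q', m', n', rs', θ', g'⟩ := τ'
  obtain ⟨h1, h2, h3, h4⟩ := h
  obtain ⟨h1', h2', h3', h4'⟩ := h'
  refine ⟨mul_ne_zero h1 h1', ?_, ?_, ?_⟩
  · intro r hr
    rcases List.mem_append.1 hr with hr | hr
    · exact h2 r hr
    · exact h2' r hr
  · intro r hr
    rcases List.mem_append.1 hr with hr | hr
    · exact h3 r hr
    · exact h3' r hr
  · intro i r hr
    rcases List.mem_append.1 hr with hr | hr
    · exact h4 i r hr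
    · exact h4' i r hr

theorem tmul_periodic {τ τ' : TermCode} (h : isPeriodic τ = true) (h' : isPeriodic τ' = true) :
    isPeriodic (tmul τ τ') = true := by
  obtain ⟨q, m, n, rs, θ, g⟩ := τ
  obtain ⟨q', m', n', rs', θ', g'⟩ := τ'
  simp only [isPeriodic, tmul, List.all_append, Bool.and_eq_true] at *
  exact ⟨h, h'⟩

/-- The product of two lists of terms. -/
def lmul (L L' : List TermCode) : List TermCode := L.flatMap fun τ => L'.map (tmul τ)

theorem map_tmul_val (τ : TermCode) (L : List TermCode) (ν t : ℝ) (x : E) :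
    lval (L.map (tmul τ)) ν t x = termVal ν τ t x * lval L ν t x := by
  induction L with
  | nil => simp [lval]
  | cons τ' L ih => rw [List.map_cons, lval_cons, lval_cons, tmul_val, ih, mul_add]

theorem lmul_val (L L' : List TermCode) (ν t : ℝ) (x : E) :
    lval (lmul L L') ν t x = lval L ν t x * lval L' ν t x := by
  induction L with
  | nil => simp [lmul, lval]
  | cons τ L ih =>
    have h1 : lmul (τ :: L) L' = L'.map (tmul τ) ++ lmul L L' := by simp [lmul]
    rw [h1, lval_append, ih, lval_cons, add_mul, map_tmul_val]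

theorem mem_lmul {L L' : List TermCode} {τ : TermCode} (h : τ ∈ lmul L L') :
    ∃ a ∈ L, ∃ b ∈ L', τ = tmul a b := by
  unfold lmul at h
  rw [List.mem_flatMap] at h
  obtain ⟨a, ha, h⟩ := h
  rw [List.mem_map] at h
  obtain ⟨b, hb, h⟩ := h
  exact ⟨a, ha, b, hb, h.symm⟩

/-- `F` is the sum of a finite list of valid periodic terms. -/
def Rep (F : ℝ → ℝ → E → ℝ) : Prop :=
  ∃ L : List TermCode, (∀ τ ∈ L, TermCode.Valid τ ∧ isPeriodic τ = true) ∧
    ∀ ν t x, F ν t x = lval L ν t x

theorem Rep.add {F G : ℝ → ℝ → E → ℝ} (hF : Rep F) (hG : Rep G) :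
    Rep fun ν t x => F ν t x + G ν t x := by
  obtain ⟨L, hL, hLv⟩ := hF
  obtain ⟨L', hL', hLv'⟩ := hG
  refine ⟨L ++ L', ?_, fun ν t x => by simp only [lval_append, hLv, hLv']⟩
  intro τ hτ
  rcases List.mem_append.1 hτ with h | h
  · exact hL τ h
  · exact hL' τ h

theorem Rep.mul {F G : ℝ → ℝ → E → ℝ} (hF : Rep F) (hG : Rep G) :
    Rep fun ν t x => F ν t x * G ν t x := by
  obtain ⟨L, hL, hLv⟩ := hF
  obtain ⟨L', hL', hLv'⟩ := hG
  refine ⟨lmul L L', ?_, fun ν t x => by simp only [lmul_val, hLv, hLv']⟩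
  intro τ hτ
  obtain ⟨a, ha, b, hb, rfl⟩ := mem_lmul hτ
  exact ⟨tmul_valid (hL a ha).1 (hL' b hb).1, tmul_periodic (hL a ha).2 (hL' b hb).2⟩

/-- The code of a rational number. -/
def qcode (q : ℚ) : QCode := (q.num, q.den)

theorem qval_qcode (q : ℚ) : qval (qcode q) = q := by
  unfold qval qcode
  exact (Rat.cast_def q).symm

theorem qcode_valid (q : ℚ) : (qcode q).2 ≠ 0 := q.den_nz

theorem exists_rat_of_qcode (q : QCode) : ∃ r : ℚ, (r : ℝ) = qval q :=
  ⟨(q.1 : ℚ) / (q.2 : ℚ), by unfold qval; push_cast; rfl⟩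

/-- A single term. -/
theorem Rep.single {F : ℝ → ℝ → E → ℝ} {τ : TermCode} (h : TermCode.Valid τ)
    (hp : isPeriodic τ = true) (hF : ∀ ν t x, F ν t x = termVal ν τ t x) : Rep F :=
  ⟨[τ], fun a ha => by rw [List.mem_singleton] at ha; subst ha; exact ⟨h, hp⟩,
    fun ν t x => by rw [hF, lval_cons, lval_nil, add_zero]⟩

theorem Rep.const (q : ℚ) : Rep fun _ _ _ => (q : ℝ) := by
  refine Rep.single (τ := (qcode q, 0, 0, [], [], fun _ => [])) ?_ ?_ ?_
  · exact ⟨qcode_valid q, by simp, by simp, by simp⟩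
  · simp [isPeriodic]
  · intro ν t x
    simp [termVal, qval_qcode]

theorem qval_one : qval (1, 1) = 1 := by simp [qval]

theorem Rep.nu : Rep fun ν _ _ => ν := by
  refine Rep.single (τ := ((1, 1), 1, 0, [], [], fun _ => [])) ?_ ?_ ?_
  · exact ⟨by simp, by simp, by simp, by simp⟩
  · simp [isPeriodic]
  · intro ν t x
    simp [termVal, qval_one]

theorem Rep.kappa (n : ℤ) : Rep fun _ _ _ => kappa ^ n := by
  refine Rep.single (τ := ((1, 1), 0, n, [], [], fun _ => [])) ?_ ?_ ?_
  · exact ⟨by simp, by simp, by simp, by simp⟩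
  · simp [isPeriodic]
  · intro ν t x
    simp [termVal, qval_one]

theorem Rep.time {g : BumpCode} (hg : BumpCode.Valid g) :
    Rep fun _ t _ => periodize (bump g) t := by
  refine Rep.single (τ := ((1, 1), 0, 0, [], [(true, g)], fun _ => [])) ?_ ?_ ?_
  · exact ⟨by simp, by simp, by simpa using hg, by simp⟩
  · simp [isPeriodic]
  · intro ν t x
    simp [termVal, qval_one]

theorem Rep.space (i : Fin 3) {g : BumpCode} (hg : BumpCode.Valid g) :
    Rep fun _ _ x => periodize (bump g) (x i) := by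
  refine Rep.single (τ := ((1, 1), 0, 0, [], [], fun j => if j = i then [g] else [])) ?_ ?_ ?_
  · refine ⟨by simp, by simp, by simp, ?_⟩
    intro j g' hg'
    by_cases h : j = i
    · simp only [h, if_true, List.mem_singleton] at hg'
      rw [hg']; exact hg
    · simp [h] at hg'
  · simp [isPeriodic]
  · intro ν t x
    simp only [termVal, qval_one, pow_zero, zpow_zero, List.map_nil, List.prod_nil, one_mul,
      mul_one]
    rw [Finset.prod_eq_single i]
    · simp
    · intro j _ hj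
      simp [hj]
    · simp

/-- The algebra of the symbolic functions of `(ν, t, x)` generated by rational constants, powers of
`κ`, `ν` and periodized bumps of `t` and of the coordinates. -/
inductive Alg : (ℝ → ℝ → E → ℝ) → Prop
  | const (q : ℚ) : Alg fun _ _ _ => (q : ℝ)
  | kappa (n : ℤ) : Alg fun _ _ _ => kappa ^ n
  | nu : Alg fun ν _ _ => ν
  | time (g : BumpCode) (hg : BumpCode.Valid g) : Alg fun _ t _ => periodize (bump g) t
  | space (i : Fin 3) (g : BumpCode) (hg : BumpCode.Valid g) :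
      Alg fun _ _ x => periodize (bump g) (x i)
  | add {F G : ℝ → ℝ → E → ℝ} (hF : Alg F) (hG : Alg G) : Alg fun ν t x => F ν t x + G ν t x
  | mul {F G : ℝ → ℝ → E → ℝ} (hF : Alg F) (hG : Alg G) : Alg fun ν t x => F ν t x * G ν t x

theorem Alg.rep {F : ℝ → ℝ → E → ℝ} (h : Alg F) : Rep F := by
  induction h with
  | const q => exact Rep.const q
  | kappa n => exact Rep.kappa n
  | nu => exact Rep.nu
  | time g hg => exact Rep.time hg
  | space i g hg => exact Rep.space i hg
  | add _ _ h1 h2 => exact h1.add h2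
  | mul _ _ h1 h2 => exact h1.mul h2

theorem Alg.congr {F G : ℝ → ℝ → E → ℝ} (h : Alg F) (e : ∀ ν t x, G ν t x = F ν t x) : Alg G := by
  have : G = F := funext fun ν => funext fun t => funext fun x => e ν t x
  rw [this]; exact h

theorem Alg.zero : Alg fun _ _ _ => (0 : ℝ) :=
  (Alg.const 0).congr fun _ _ _ => by simp

theorem Alg.one : Alg fun _ _ _ => (1 : ℝ) :=
  (Alg.const 1).congr fun _ _ _ => by simp

theorem Alg.neg {F : ℝ → ℝ → E → ℝ} (h : Alg F) : Alg fun ν t x => -F ν t x :=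
  ((Alg.const (-1)).mul h).congr fun _ _ _ => by simp

theorem Alg.sub {F G : ℝ → ℝ → E → ℝ} (h : Alg F) (h' : Alg G) :
    Alg fun ν t x => F ν t x - G ν t x :=
  (h.add h'.neg).congr fun _ _ _ => by ring

theorem Alg.sum {ι : Type} (s : Finset ι) {F : ι → ℝ → ℝ → E → ℝ} (h : ∀ i ∈ s, Alg (F i)) :
    Alg fun ν t x => ∑ i ∈ s, F i ν t x := by
  classical
  induction s using Finset.induction_on with
  | empty => simpa using Alg.zero
  | insert a s ha ih =>
    refine ((h a (Finset.mem_insert_self a s)).add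
      (ih fun i hi => h i (Finset.mem_insert_of_mem hi))).congr fun ν t x => ?_
    rw [Finset.sum_insert ha]

theorem Alg.qval (q : QCode) : Alg fun _ _ _ => qval q := by
  obtain ⟨r, hr⟩ := exists_rat_of_qcode q
  exact (Alg.const r).congr fun _ _ _ => hr.symm

theorem Alg.nat (n : ℕ) : Alg fun _ _ _ => (n : ℝ) :=
  (Alg.const n).congr fun _ _ _ => by simp

/-- A bump code is a bump in the sense of `R`. -/
theorem bump_inl (k j : ℕ) (a b : QCode) :
    bump (.inl (k, j, a, b)) = R.bumpR k j (Vale.Agent.P113.qval a) (Vale.Agent.P113.qval b) := rfl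

theorem bump_inr (k : ℕ) (l a b : QCode) :
    bump (.inr (k, l, a, b)) = R.bumpP k (Vale.Agent.P113.qval l) (Vale.Agent.P113.qval a)
      (Vale.Agent.P113.qval b) := rfl

/-- The sum of two rational codes. -/
def qadd (a b : QCode) : QCode := (a.1 * b.2 + b.1 * a.2, a.2 * b.2)

theorem qval_qadd {a b : QCode} (ha : a.2 ≠ 0) (hb : b.2 ≠ 0) :
    Vale.Agent.P113.qval (qadd a b) = Vale.Agent.P113.qval a + Vale.Agent.P113.qval b := by
  have ha' : (a.2 : ℝ) ≠ 0 := by exact_mod_cast ha
  have hb' : (b.2 : ℝ) ≠ 0 := by exact_mod_cast hb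
  unfold Vale.Agent.P113.qval qadd
  push_cast
  field_simp

/-- The derivative of a periodized bump is a combination of periodized bumps. -/
theorem bump_deriv {g : BumpCode} (hg : BumpCode.Valid g) :
    ∃ (L : List (ℝ × BumpCode)), (∀ p ∈ L, BumpCode.Valid p.2 ∧ ∃ q : ℚ, (q : ℝ) = p.1) ∧
      ∀ y, HasDerivAt (periodize (bump g)) ((L.map fun p => p.1 * periodize (bump p.2) y).sum) y := by
  rcases g with ⟨k, j, a, b⟩ | ⟨k, l, a, b⟩
  · obtain ⟨h1, h2, h3⟩ := hg
    refine ⟨[((k : ℝ), .inl (k - 1, j, a, b)), (qval a, .inl (k, j + 1, a, b))], ?_, ?_⟩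
    · intro p hp
      simp only [List.mem_cons, List.not_mem_nil, or_false] at hp
      rcases hp with rfl | rfl
      · exact ⟨⟨h1, h2, h3⟩, k, by simp⟩
      · exact ⟨⟨h1, h2, h3⟩, exists_rat_of_qcode a⟩
    · intro y
      simp only [List.map_cons, List.map_nil, List.sum_cons, List.sum_nil, add_zero]
      have e1 : bump (.inl (k, j, a, b)) = R.bumpR k j (qval a) (qval b) := rfl
      have e2 : bump (.inl (k - 1, j, a, b)) = R.bumpR (k - 1) j (qval a) (qval b) := rfl
      have e3 : bump (.inl (k, j + 1, a, b)) = R.bumpR k (j + 1) (qval a) (qval b) := rfl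
      rw [e1, e2, e3]
      have := R.hasDerivAt_periodize (R.nice_bumpR k j (qval b) h3).supp
        (R.hasDerivAt_bumpR k j (qval a) (qval b)) y
      refine this.congr_deriv ?_
      rw [R.periodize_add, R.periodize_const_mul, R.periodize_const_mul]
      · obtain ⟨C, hC⟩ := (R.nice_bumpR (k - 1) j (qval b) h3).supp
        exact ⟨C, fun s hs => by rw [hC s hs, mul_zero]⟩
      · obtain ⟨C, hC⟩ := (R.nice_bumpR k (j + 1) (qval b) h3).supp
        exact ⟨C, fun s hs => by rw [hC s hs, mul_zero]⟩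
  · obtain ⟨h0, h1, h2, h3, h4⟩ := hg
    refine ⟨[((k : ℝ), .inr (k - 1, l, a, b)), (qval a, .inl (k, 0, a, b)),
      (-qval a, .inl (k, 0, a, qadd b l))], ?_, ?_⟩
    · intro p hp
      simp only [List.mem_cons, List.not_mem_nil, or_false] at hp
      rcases hp with rfl | rfl | rfl
      · exact ⟨⟨h0, h1, h2, h3, h4⟩, k, by simp⟩
      · exact ⟨⟨h1, h2, h3⟩, exists_rat_of_qcode a⟩
      · obtain ⟨r, hr⟩ := exists_rat_of_qcode a
        exact ⟨⟨h1, mul_ne_zero h2 h0, h3⟩, -r, by push_cast; rw [hr]⟩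
    · intro y
      simp only [List.map_cons, List.map_nil, List.sum_cons, List.sum_nil, add_zero]
      have e1 : bump (.inr (k, l, a, b)) = R.bumpP k (qval l) (qval a) (qval b) := rfl
      have e2 : bump (.inr (k - 1, l, a, b)) = R.bumpP (k - 1) (qval l) (qval a) (qval b) := rfl
      have e3 : bump (.inl (k, 0, a, b)) = R.bumpR k 0 (qval a) (qval b) := rfl
      have e4 : bump (.inl (k, 0, a, qadd b l)) = R.bumpR k 0 (qval a) (qval b + qval l) := by
        rw [← qval_qadd h2 h0]; rfl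
      rw [e1, e2, e3, e4]
      have := R.hasDerivAt_periodize (R.nice_bumpP k (qval b) h4.le h3).supp
        (R.hasDerivAt_bumpP k (qval l) (qval a) (qval b)) y
      refine this.congr_deriv ?_
      have s1 : ∃ C : ℝ, ∀ s, C ≤ |s| → (k : ℝ) * R.bumpP (k - 1) (qval l) (qval a) (qval b) s = 0 := by
        obtain ⟨C, hC⟩ := (R.nice_bumpP (k - 1) (qval b) h4.le h3).supp
        exact ⟨C, fun s hs => by rw [hC s hs, mul_zero]⟩
      have s2 : ∃ C : ℝ, ∀ s, C ≤ |s| → qval a * R.bumpR k 0 (qval a) (qval b) s = 0 := by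
        obtain ⟨C, hC⟩ := (R.nice_bumpR k 0 (qval b) h3).supp
        exact ⟨C, fun s hs => by rw [hC s hs, mul_zero]⟩
      have s3 : ∃ C : ℝ, ∀ s, C ≤ |s| →
          (-qval a) * R.bumpR k 0 (qval a) (qval b + qval l) s = 0 := by
        obtain ⟨C, hC⟩ := (R.nice_bumpR k 0 (qval b + qval l) h3).supp
        exact ⟨C, fun s hs => by rw [hC s hs, mul_zero]⟩
      have s4 : ∃ C : ℝ, ∀ s, C ≤ |s| → qval a * R.bumpR k 0 (qval a) (qval b) s +
          (-qval a) * R.bumpR k 0 (qval a) (qval b + qval l) s = 0 := by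
        obtain ⟨C, hC⟩ := s2
        obtain ⟨D, hD⟩ := s3
        exact ⟨max C D, fun s hs => by
          rw [hC s ((le_max_left _ _).trans hs), hD s ((le_max_right _ _).trans hs), add_zero]⟩
      rw [R.periodize_add s1 s4, R.periodize_add s2 s3, R.periodize_const_mul,
        R.periodize_const_mul, R.periodize_const_mul]

theorem Alg.lsum_time {L : List (ℝ × BumpCode)}
    (hL : ∀ p ∈ L, BumpCode.Valid p.2 ∧ ∃ q : ℚ, (q : ℝ) = p.1) :
    Alg fun _ t _ => (L.map fun p => p.1 * periodize (bump p.2) t).sum := by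
  induction L with
  | nil => simpa using Alg.zero
  | cons p L ih =>
    obtain ⟨h1, q, hq⟩ := hL p List.mem_cons_self
    refine (((Alg.const q).mul (Alg.time p.2 h1)).add
      (ih fun p' hp' => hL p' (List.mem_cons_of_mem p hp'))).congr fun ν t x => ?_
    simp only [List.map_cons, List.sum_cons, hq]

theorem Alg.lsum_space (i : Fin 3) {L : List (ℝ × BumpCode)}
    (hL : ∀ p ∈ L, BumpCode.Valid p.2 ∧ ∃ q : ℚ, (q : ℝ) = p.1) :
    Alg fun _ _ x => (L.map fun p => p.1 * periodize (bump p.2) (x i)).sum := by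
  induction L with
  | nil => simpa using Alg.zero
  | cons p L ih =>
    obtain ⟨h1, q, hq⟩ := hL p List.mem_cons_self
    refine (((Alg.const q).mul (Alg.space i p.2 h1)).add
      (ih fun p' hp' => hL p' (List.mem_cons_of_mem p hp'))).congr fun ν t x => ?_
    simp only [List.map_cons, List.sum_cons, hq]

/-- Time derivatives. -/
theorem Alg.exists_dt {F : ℝ → ℝ → E → ℝ} (h : Alg F) :
    ∃ F' : ℝ → ℝ → E → ℝ, Alg F' ∧ ∀ ν t x, HasDerivAt (fun s => F ν s x) (F' ν t x) t := by
  induction h with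
  | const q => exact ⟨_, Alg.zero, fun ν t x => hasDerivAt_const _ _⟩
  | kappa n => exact ⟨_, Alg.zero, fun ν t x => hasDerivAt_const _ _⟩
  | nu => exact ⟨_, Alg.zero, fun ν t x => hasDerivAt_const _ _⟩
  | time g hg =>
    obtain ⟨L, hL, hd⟩ := bump_deriv hg
    exact ⟨_, Alg.lsum_time hL, fun ν t x => hd t⟩
  | space i g hg => exact ⟨_, Alg.zero, fun ν t x => hasDerivAt_const _ _⟩
  | add _ _ h1 h2 =>
    obtain ⟨F', hF, hdF⟩ := h1
    obtain ⟨G', hG, hdG⟩ := h2
    exact ⟨_, hF.add hG, fun ν t x => (hdF ν t x).add (hdG ν t x)⟩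
  | mul a b h1 h2 =>
    obtain ⟨F', hF, hdF⟩ := h1
    obtain ⟨G', hG, hdG⟩ := h2
    exact ⟨_, (hF.mul b).add (a.mul hG), fun ν t x => (hdF ν t x).mul (hdG ν t x)⟩

/-- Space derivatives. -/
theorem Alg.exists_dx (k : Fin 3) {F : ℝ → ℝ → E → ℝ} (h : Alg F) :
    ∃ F' : ℝ → ℝ → E → ℝ, Alg F' ∧
      ∀ ν t x, HasDerivAt (fun s => F ν t (Function.update x k s)) (F' ν t x) (x k) := by
  induction h with
  | const q => exact ⟨_, Alg.zero, fun ν t x => hasDerivAt_const _ _⟩
  | kappa n => exact ⟨_, Alg.zero, fun ν t x => hasDerivAt_const _ _⟩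
  | nu => exact ⟨_, Alg.zero, fun ν t x => hasDerivAt_const _ _⟩
  | time g hg => exact ⟨_, Alg.zero, fun ν t x => hasDerivAt_const _ _⟩
  | space i g hg =>
    obtain ⟨L, hL, hd⟩ := bump_deriv hg
    by_cases h : i = k
    · subst h
      refine ⟨_, Alg.lsum_space i hL, fun ν t x => ?_⟩
      simp only [Function.update_self]
      exact hd (x i)
    · refine ⟨_, Alg.zero, fun ν t x => ?_⟩
      simp only [Function.update_of_ne h]
      exact hasDerivAt_const _ _
  | add _ _ h1 h2 =>
    obtain ⟨F', hF, hdF⟩ := h1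
    obtain ⟨G', hG, hdG⟩ := h2
    exact ⟨_, hF.add hG, fun ν t x => (hdF ν t x).add (hdG ν t x)⟩
  | mul a b h1 h2 =>
    obtain ⟨F', hF, hdF⟩ := h1
    obtain ⟨G', hG, hdG⟩ := h2
    refine ⟨_, (hF.mul b).add (a.mul hG), fun ν t x => ?_⟩
    have := (hdF ν t x).mul (hdG ν t x)
    simp only [Function.update_eq_self] at this
    exact this

theorem Alg.hasPd {F : ℝ → ℝ → E → ℝ} (h : Alg F) (k : Fin 3) (ν t : ℝ) : HasPd k (F ν t) := by
  obtain ⟨F', _, hd⟩ := h.exists_dx k
  exact fun x => (hd ν t x).differentiableAt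

/-- The class is closed under partial derivatives. -/
theorem Alg.pd {F : ℝ → ℝ → E → ℝ} (h : Alg F) (k : Fin 3) :
    Alg fun ν t x => Vale.Agent.P113.pd k (F ν t) x := by
  obtain ⟨F', hF, hd⟩ := h.exists_dx k
  exact hF.congr fun ν t x => (hd ν t x).deriv

/-- The class is closed under the time derivative. -/
theorem Alg.dt {F : ℝ → ℝ → E → ℝ} (h : Alg F) :
    Alg fun ν t x => deriv (fun s => F ν s x) t := by
  obtain ⟨F', hF, hd⟩ := h.exists_dt
  exact hF.congr fun ν t x => (hd ν t x).deriv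

theorem bump_nice {g : BumpCode} (hg : BumpCode.Valid g) : R.Nice (bump g) := by
  rcases g with ⟨k, j, a, b⟩ | ⟨k, l, a, b⟩
  · exact R.nice_bumpR k j _ hg.2.2
  · exact R.nice_bumpP k _ hg.2.2.2.2.le hg.2.2.2.1

/-- Symbolic functions are smooth in `(t, x)`. -/
theorem Alg.contDiff {F : ℝ → ℝ → E → ℝ} (h : Alg F) (ν : ℝ) :
    ContDiff ℝ ∞ fun z : ℝ × E => F ν z.1 z.2 := by
  induction h with
  | const q => exact contDiff_const
  | kappa n => exact contDiff_const
  | nu => exact contDiff_const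
  | time g hg => exact (R.contDiff_periodize (bump_nice hg)).comp contDiff_fst
  | space i g hg =>
    exact (R.contDiff_periodize (bump_nice hg)).comp
      ((contDiff_apply ℝ ℝ i).comp contDiff_snd)
  | add _ _ h1 h2 => exact h1.add h2
  | mul _ _ h1 h2 => exact h1.mul h2

theorem Alg.contDiff_space {F : ℝ → ℝ → E → ℝ} (h : Alg F) (ν t : ℝ) :
    ContDiff ℝ ∞ (F ν t) :=
  (h.contDiff ν).comp (contDiff_const.prodMk contDiff_id)

theorem Alg.contDiff_time {F : ℝ → ℝ → E → ℝ} (h : Alg F) (ν : ℝ) (x : E) :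
    ContDiff ℝ ∞ fun t => F ν t x :=
  (h.contDiff ν).comp (contDiff_id.prodMk contDiff_const)

/-- Symbolic functions are `ℤ³`-periodic in `x`. -/
theorem Alg.periodic {F : ℝ → ℝ → E → ℝ} (h : Alg F) (ν t : ℝ) (x : E) (k : Fin 3 → ℤ) :
    F ν t (x + fun i => (k i : ℝ)) = F ν t x := by
  induction h with
  | const q => rfl
  | kappa n => rfl
  | nu => rfl
  | time g hg => rfl
  | space i g hg => exact R.periodize_add_int _ _ _
  | add _ _ h1 h2 => simp only [h1, h2]
  | mul _ _ h1 h2 => simp only [h1, h2]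

/-- Symbolic functions have period `1` in `t`. -/
theorem Alg.periodic_time {F : ℝ → ℝ → E → ℝ} (h : Alg F) (ν t : ℝ) (x : E) (n : ℤ) :
    F ν (t + n) x = F ν t x := by
  induction h with
  | const q => rfl
  | kappa n => rfl
  | nu => rfl
  | time g hg => exact R.periodize_add_int _ _ _
  | space i g hg => rfl
  | add _ _ h1 h2 => simp only [h1, h2]
  | mul _ _ h1 h2 => simp only [h1, h2]

/-- The force component of a family of shears is symbolic. -/
theorem alg_force {ι : Type} (s : Finset ι) (d : ι → Fin 3) (θ : ι → ℝ → ℝ) (V : ι → E → ℝ)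
    (hθ : ∀ m ∈ s, Alg fun _ t _ => θ m t) (hV : ∀ m ∈ s, Alg fun _ _ x => V m x) (i : Fin 3) :
    Alg fun ν t x => ∑ m ∈ s, if d m = i then deriv (θ m) t * V m x -
      ν * (θ m t * ∑ j, Vale.Agent.P113.pd j (Vale.Agent.P113.pd j (V m)) x) else 0 := by
  apply Alg.sum
  intro m hm
  by_cases h : d m = i
  · simp only [h, if_true]
    have h1 : Alg fun _ t _ => deriv (θ m) t := (hθ m hm).dt
    have h2 : Alg fun _ _ x =>
        ∑ j, Vale.Agent.P113.pd j (Vale.Agent.P113.pd j (V m)) x := by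
      apply Alg.sum
      intro j _
      exact ((hV m hm).pd j).pd j
    exact (h1.mul (hV m hm)).sub (Alg.nu.mul ((hθ m hm).mul h2))
  · simp only [h, if_false]
    exact Alg.zero

end Vale.Agent.P113.S
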