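import Vale.Agent.P113.H799.S
import Vale.Agent.P113.Iface

/-!
P113: the symbolic side of the force: admissible functions of `x`, the slot functions, the code of
the periodic part of the force.
-/

open MeasureTheory Set Filter Topology
open scoped ContDiff

namespace Vale.Agent.P113.S

/-! ### Closure of `Adm` -/

theorem adm_single {V : E → ℝ} {τ : SCode} (h : SCode.Valid τ) (hV : ∀ x, V x = sVal τ x) :
    Adm V :=
  ⟨[τ], fun a ha => by rw [List.mem_singleton] at ha; subst ha; exact h,
    fun x => by simp [hV]⟩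

theorem adm_const (q : ℚ) : Adm fun _ => (q : ℝ) := by
  refine adm_single (τ := (qcode q, 0, fun _ => [])) ⟨qcode_valid q, by simp⟩ fun x => ?_
  simp [sVal, qval_qcode]

theorem adm_kappa (n : ℤ) : Adm fun _ => kappa ^ n := by
  refine adm_single (τ := ((1, 1), n, fun _ => [])) ⟨by simp, by simp⟩ fun x => ?_
  simp [sVal, qval_one]

theorem adm_space (i : Fin 3) {g : BumpCode} (hg : BumpCode.Valid g) :
    Adm fun x => periodize (bump g) (x i) := by
  refine adm_single (τ := ((1, 1), 0, fun j => if j = i then [g] else [])) ?_ fun x => ?_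
  · refine ⟨by simp, ?_⟩
    intro j g' hg'
    by_cases h : j = i
    · simp only [h, if_true, List.mem_singleton] at hg'
      rw [hg']; exact hg
    · simp [h] at hg'
  · simp only [sVal, qval_one, zpow_zero, one_mul]
    rw [Finset.prod_eq_single i]
    · simp
    · intro j _ hj
      simp [hj]
    · simp

theorem adm_add {V W : E → ℝ} (hV : Adm V) (hW : Adm W) : Adm fun x => V x + W x := by
  obtain ⟨L, hL, hLv⟩ := hV
  obtain ⟨L', hL', hLv'⟩ := hW
  refine ⟨L ++ L', ?_, fun x => by simp [hLv, hLv']⟩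
  intro τ hτ
  rcases List.mem_append.1 hτ with h | h
  · exact hL τ h
  · exact hL' τ h

/-- The product of two space terms. -/
def smul : SCode → SCode → SCode
  | (q, n, h), (q', n', h') => ((q.1 * q'.1, q.2 * q'.2), n + n', fun i => h i ++ h' i)

theorem smul_val (τ τ' : SCode) (x : E) : sVal (smul τ τ') x = sVal τ x * sVal τ' x := by
  obtain ⟨q, n, h⟩ := τ
  obtain ⟨q', n', h'⟩ := τ'
  simp only [smul, sVal, qval_mul, zpow_add₀ R.kappa_pos.ne', List.map_append,
    List.prod_append, Finset.prod_mul_distrib]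
  ring

theorem smul_valid {τ τ' : SCode} (h : SCode.Valid τ) (h' : SCode.Valid τ') :
    SCode.Valid (smul τ τ') := by
  obtain ⟨q, n, g⟩ := τ
  obtain ⟨q', n', g'⟩ := τ'
  obtain ⟨h1, h2⟩ := h
  obtain ⟨h1', h2'⟩ := h'
  refine ⟨mul_ne_zero h1 h1', ?_⟩
  intro i r hr
  rcases List.mem_append.1 hr with hr | hr
  · exact h2 i r hr
  · exact h2' i r hr

theorem adm_mul {V W : E → ℝ} (hV : Adm V) (hW : Adm W) : Adm fun x => V x * W x := by
  obtain ⟨L, hL, hLv⟩ := hV
  obtain ⟨L', hL', hLv'⟩ := hW
  refine ⟨L.flatMap fun τ => L'.map (smul τ), ?_, fun x => ?_⟩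
  · intro τ hτ
    rw [List.mem_flatMap] at hτ
    obtain ⟨a, ha, hτ⟩ := hτ
    rw [List.mem_map] at hτ
    obtain ⟨b, hb, rfl⟩ := hτ
    exact smul_valid (hL a ha) (hL' b hb)
  · simp only [hLv, hLv']
    clear hL hL' hLv hLv'
    induction L with
    | nil => simp
    | cons τ L ih =>
      have h2 : ((L'.map (smul τ)).map fun τ => sVal τ x).sum =
          sVal τ x * (L'.map fun τ => sVal τ x).sum := by
        clear ih
        induction L' with
        | nil => simp
        | cons τ' L' ih' =>
          simp only [List.map_cons, List.sum_cons, smul_val, mul_add]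
          rw [← ih']
      simp only [List.map_cons, List.sum_cons, List.flatMap_cons, List.map_append,
        List.sum_append, add_mul]
      rw [h2, ih]

theorem adm_congr {V W : E → ℝ} (h : Adm V) (e : ∀ x, W x = V x) : Adm W := by
  have : W = V := funext e
  rw [this]; exact h

theorem adm_zero : Adm fun _ => (0 : ℝ) := adm_congr (adm_const 0) fun _ => by simp

theorem adm_one : Adm fun _ => (1 : ℝ) := adm_congr (adm_const 1) fun _ => by simp

theorem adm_neg {V : E → ℝ} (h : Adm V) : Adm fun x => -V x :=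
  adm_congr (adm_mul (adm_const (-1)) h) fun _ => by simp

theorem adm_sub {V W : E → ℝ} (h : Adm V) (h' : Adm W) : Adm fun x => V x - W x :=
  adm_congr (adm_add h (adm_neg h')) fun _ => by ring

theorem adm_sum {ι : Type} (s : Finset ι) {V : ι → E → ℝ} (h : ∀ i ∈ s, Adm (V i)) :
    Adm fun x => ∑ i ∈ s, V i x := by
  classical
  induction s using Finset.induction_on with
  | empty => simpa using adm_zero
  | insert a s ha ih =>
    refine adm_congr (adm_add (h a (Finset.mem_insert_self a s))
      (ih fun i hi => h i (Finset.mem_insert_of_mem hi))) fun x => ?_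
    rw [Finset.sum_insert ha]

/-! ### One-variable functions: the linear function and the plateaus -/

/-- The linear function near `0`: `κ⁻¹ P[s π₁₄(16 s + 7)]`. -/
noncomputable def lin (s : ℝ) : ℝ :=
  kappa⁻¹ * periodize (bump (.inr (1, (14, 1), (16, 1), (-7, 1)))) s

theorem lin_valid : BumpCode.Valid (.inr (1, (14, 1), (16, 1), (-7, 1))) := by
  refine ⟨by simp, by simp, by simp, ?_, ?_⟩ <;> simp [qval]

theorem adm_lin (i : Fin 3) : Adm fun x => lin (x i) :=
  adm_congr (adm_mul (adm_kappa (-1)) (adm_space i lin_valid)) fun x => by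
    rw [zpow_neg_one]; rfl

theorem lin_eq {s : ℝ} (hs : |s| ≤ 3 / 8) : lin s = s := by
  obtain ⟨h1, h2⟩ := abs_le.1 hs
  have hb : ∀ s, bump (.inr (1, (14, 1), (16, 1), (-7, 1))) s = s * plateau 14 (16 * s + 7) := by
    intro s
    simp [bump, qval]
  unfold lin
  rw [R.periodize_eq_self (c := 0) _ (by rw [sub_zero]; linarith), hb,
    R.plateau_eq_kappa (by linarith) (by linarith)]
  · field_simp [R.kappa_pos.ne']
  · intro s hs
    rw [hb]
    rw [sub_zero] at hs
    rcases le_abs.1 hs with h | h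
    · rw [R.plateau_eq_zero_right (by norm_num) (by linarith), mul_zero]
    · rw [R.plateau_eq_zero_left (by norm_num) (by linarith), mul_zero]

theorem lin_periodic (s : ℝ) (n : ℤ) : lin (s + n) = lin s := by
  unfold lin
  rw [R.periodize_add_int]

/-- Plateaus: for rational `c`, `δ ≥ 0`, `η > 0` there is an admissible function of one variable
with values in `[0, 1]` which is `1` for `|s - c| ≤ δ` and `0` for `|s - c| ≥ δ + η`, within the
period `|s - c| ≤ 1 / 2`. -/
theorem exists_plateau (c δ η : ℚ) (hδ : 0 ≤ δ) (hη : 0 < η) (h : δ + η ≤ 1 / 2) :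
    ∃ b : ℝ → ℝ, (∀ i : Fin 3, Adm fun x => b (x i)) ∧ (∀ s : ℝ, 0 ≤ b s ∧ b s ≤ 1) ∧
      (∀ s : ℝ, |s - c| ≤ δ → b s = 1) ∧
      (∀ s : ℝ, δ + η ≤ |s - c| → |s - c| ≤ 1 / 2 → b s = 0) ∧
      ∀ (s : ℝ) (n : ℤ), b (s + n) = b s := by
  have hη' : (0 : ℝ) < η := by exact_mod_cast hη
  have hδ' : (0 : ℝ) ≤ δ := by exact_mod_cast hδ
  have h' : (δ : ℝ) + η ≤ 1 / 2 := by
    have : ((δ + η : ℚ) : ℝ) ≤ ((1 / 2 : ℚ) : ℝ) := by exact_mod_cast h
    push_cast at this
    exact this
  set a : ℚ := 2 / η with ha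
  set l : ℚ := 2 + 4 * δ / η with hl
  set β : ℚ := 2 * (c - δ) / η - 1 with hβ
  have hl0 : 0 < l := by positivity
  have ha0 : 0 < a := by positivity
  have hl0' : (0 : ℝ) < l := by exact_mod_cast hl0
  have hv : BumpCode.Valid (.inr (0, qcode l, qcode a, qcode β)) := by
    refine ⟨qcode_valid _, qcode_valid _, qcode_valid _, ?_, ?_⟩
    · rw [qval_qcode]; exact_mod_cast ha0.ne'
    · rw [qval_qcode]; exact_mod_cast hl0
  have hb : ∀ s, bump (.inr (0, qcode l, qcode a, qcode β)) s = plateau l (a * s - β) := by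
    intro s
    simp only [bump, qval_qcode, pow_zero, one_mul]
  have e1 : ∀ s : ℝ, (a : ℝ) * s - β = 1 + 2 * (s - c + δ) / η := by
    intro s
    rw [ha, hβ]
    push_cast
    field_simp
    ring
  have e2 : (l : ℝ) = 2 + 4 * δ / η := by rw [hl]; push_cast; ring
  have hout : ∀ s : ℝ, δ + η ≤ |s - c| → bump (.inr (0, qcode l, qcode a, qcode β)) s = 0 := by
    intro s hs
    rw [hb, e1]
    rcases le_abs.1 hs with h1 | h1
    · apply R.plateau_eq_zero_right hl0'.le
      rw [e2]
      have : 2 + 4 * (δ : ℝ) / η ≤ 2 * (s - c + δ) / η := by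
        rw [show 2 + 4 * (δ : ℝ) / η = (2 * η + 4 * δ) / η by field_simp]
        exact div_le_div_of_nonneg_right (by linarith) hη'.le
      linarith
    · apply R.plateau_eq_zero_left hl0'.le
      have : 2 * (s - c + δ) / η ≤ -2 := by
        rw [div_le_iff₀ hη']
        linarith
      linarith
  have hin : ∀ s : ℝ, |s - c| ≤ δ → bump (.inr (0, qcode l, qcode a, qcode β)) s = kappa := by
    intro s hs
    obtain ⟨h1, h2⟩ := abs_le.1 hs
    rw [hb, e1]
    apply R.plateau_eq_kappa
    · have : 0 ≤ 2 * (s - c + δ) / η := div_nonneg (by linarith) hη'.le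
      linarith
    · rw [e2]
      have : 2 * (s - c + δ) / η ≤ 4 * (δ : ℝ) / η := by
        exact div_le_div_of_nonneg_right (by linarith) hη'.le
      linarith
  have hself : ∀ s : ℝ, |s - c| ≤ 1 / 2 →
      periodize (bump (.inr (0, qcode l, qcode a, qcode β))) s =
        bump (.inr (0, qcode l, qcode a, qcode β)) s := by
    intro s hs
    exact R.periodize_eq_self (c := c) (fun r hr => hout r (h'.trans hr)) hs
  refine ⟨fun s => kappa⁻¹ * periodize (bump (.inr (0, qcode l, qcode a, qcode β))) s,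
    fun i => ?_, fun s => ?_, fun s hs => ?_, fun s hs hs2 => ?_, fun s n => ?_⟩
  · exact adm_congr (adm_mul (adm_kappa (-1)) (adm_space i hv)) fun x => by
      rw [zpow_neg_one]
  · -- reduce to the fundamental domain
    obtain ⟨n, hn⟩ : ∃ n : ℤ, |s - c - n| ≤ 1 / 2 := ⟨round (s - c), abs_sub_round (s - c)⟩
    have e : periodize (bump (.inr (0, qcode l, qcode a, qcode β))) s =
        bump (.inr (0, qcode l, qcode a, qcode β)) (s - n) := by
      exact R.periodize_eq_translate (c := c) (fun r hr => hout r (h'.trans hr)) n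
        (by rw [show s - n - c = s - c - n by ring]; exact hn)
    simp only [e, hb]
    have h1 : 0 ≤ plateau (l : ℝ) (a * (s - n) - β) :=
      sub_nonneg.2 (R.sigma_mono (by linarith))
    have h2 : plateau (l : ℝ) (a * (s - n) - β) ≤ kappa := by
      have h3 := R.sigma_le_kappa (a * (s - n) - β)
      have h4 := R.sigma_nonneg (a * (s - n) - β - l)
      unfold plateau
      linarith
    have hk := R.kappa_pos
    constructor
    · positivity
    · rw [inv_mul_le_iff₀ hk, mul_one]
      exact h2
  · simp only [hself s (by linarith), hin s hs]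
    exact inv_mul_cancel₀ R.kappa_pos.ne'
  · simp only [hself s hs2, hout s hs, mul_zero]
  · simp only [R.periodize_add_int]

/-! ### From `Adm` to `Alg` -/

theorem sVal_alg {τ : SCode} (h : SCode.Valid τ) : Alg fun _ _ x => sVal τ x := by
  obtain ⟨q, n, g⟩ := τ
  obtain ⟨h1, h2⟩ := h
  have hprod : ∀ (i : Fin 3) (l : List BumpCode), (∀ b ∈ l, BumpCode.Valid b) →
      Alg fun _ _ x => (l.map fun g => periodize (bump g) (x i)).prod := by
    intro i l
    induction l with
    | nil => intro _; simpa using Alg.one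
    | cons b l ih =>
      intro hl
      refine ((Alg.space i b (hl b List.mem_cons_self)).mul
        (ih fun b' hb' => hl b' (List.mem_cons_of_mem b hb'))).congr fun ν t x => ?_
      simp only [List.map_cons, List.prod_cons]
  refine (((Alg.qval q).mul (Alg.kappa n)).mul (((hprod 0 (g 0) (h2 0)).mul
    (hprod 1 (g 1) (h2 1))).mul (hprod 2 (g 2) (h2 2)))).congr fun ν t x => ?_
  simp only [sVal, Fin.prod_univ_three]

theorem adm_alg {V : E → ℝ} (h : Adm V) : Alg fun _ _ x => V x := by
  obtain ⟨L, hL, hLv⟩ := h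
  have : Alg fun _ _ x => (L.map fun τ => sVal τ x).sum := by
    clear hLv
    induction L with
    | nil => simpa using Alg.zero
    | cons τ L ih =>
      refine ((sVal_alg (hL τ List.mem_cons_self)).add
        (ih fun b' hb' => hL b' (List.mem_cons_of_mem τ hb'))).congr fun ν t x => ?_
      simp only [List.map_cons, List.sum_cons]
  exact this.congr fun ν t x => hLv x

theorem adm_contDiff {V : E → ℝ} (h : Adm V) : ContDiff ℝ ∞ V :=
  (adm_alg h).contDiff_space 0 0

theorem adm_periodic {V : E → ℝ} (h : Adm V) (x : E) (k : Fin 3 → ℤ) :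
    V (x + fun i => (k i : ℝ)) = V x :=
  (adm_alg h).periodic 0 0 x k

/-! ### The slots -/

theorem slot_valid (m : ℕ) : BumpCode.Valid (.inl (0, 0, (32, 1), (2 * (m : ℤ) + 1, 1))) := by
  refine ⟨by simp, by simp, ?_⟩
  simp [qval]

theorem slot_eq (m : ℕ) (t : ℝ) :
    slot m t = 32 * kappa⁻¹ * bump (.inl (0, 0, (32, 1), (2 * (m : ℤ) + 1, 1))) t := by
  simp [slot, bump, qval, iteratedDeriv_zero]

theorem pslot_eq (m : ℕ) (t : ℝ) :
    pslot m t =
      32 * kappa⁻¹ * periodize (bump (.inl (0, 0, (32, 1), (2 * (m : ℤ) + 1, 1)))) t := by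
  unfold pslot
  rw [← R.periodize_const_mul]
  congr 1
  funext s
  exact slot_eq m s

theorem pslot_alg (m : ℕ) : Alg fun _ t _ => pslot m t := by
  refine (((Alg.const 32).mul (Alg.kappa (-1))).mul (Alg.time _ (slot_valid m))).congr
    fun ν t x => ?_
  rw [pslot_eq, zpow_neg_one]
  norm_num

/-- The code of the periodic part of the force. -/
theorem exists_code (V : Fin 8 → E → ℝ) (dir : Fin 8 → Fin 3) (hV : ∀ j, Adm (V j)) :
    ∃ P : Fin 3 → List TermCode,
      (∀ i, ∀ τ ∈ P i, TermCode.Valid τ ∧ isPeriodic τ = true) ∧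
      ∀ ν t x i, forceVal ν P t x i = ∑ j : Fin 8, if dir j = i then
        deriv (pslot (8 + j)) t * V j x - ν * (pslot (8 + j) t * ∑ k, pd k (pd k (V j)) x)
        else 0 := by
  have key : ∀ i : Fin 3, Rep fun ν t x => ∑ j : Fin 8, if dir j = i then
      deriv (pslot (8 + j)) t * V j x - ν * (pslot (8 + j) t * ∑ k, pd k (pd k (V j)) x)
      else 0 := fun i =>
    (alg_force Finset.univ dir (fun j : Fin 8 => pslot (8 + j)) V
      (fun j _ => pslot_alg _) (fun j _ => adm_alg (hV j)) i).rep
  choose P hP hPv using key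
  refine ⟨P, hP, fun ν t x i => ?_⟩
  rw [forceVal_apply]
  exact (hPv i ν t x).symm

end Vale.Agent.P113.S
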